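import Vale.Agent.P302.Pk

/-!
In a packing, the bin of a given item may be assumed not to improve by adding an item or by
replacing another item of it by a larger item from outside.
-/

namespace Vale.Agent.P302

theorem Pk.replace {L k : ℕ} {M : Multiset ℕ} (h : Pk L k M) :
    ∀ {y u : ℕ} {N : Multiset ℕ}, M = y ::ₘ N → u ≤ y → Pk L k (u ::ₘ N) := by
  induction h with
  | nil =>
    intro y u N hM _
    exact absurd hM.symm (Multiset.cons_ne_zero)
  | @bin k M B hB hM ih =>
    intro y u N hN hu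
    have hy : y ∈ B + M := by rw [hN]; simp
    rcases Multiset.mem_add.1 hy with h | h
    · obtain ⟨C, rfl⟩ := Multiset.exists_cons_of_mem h
      rw [Multiset.cons_add, Multiset.cons_inj_right] at hN
      rw [← hN, ← Multiset.cons_add]
      refine Pk.bin _ ?_ hM
      rw [Multiset.sum_cons] at hB ⊢
      omega
    · obtain ⟨C, rfl⟩ := Multiset.exists_cons_of_mem h
      rw [Multiset.add_cons, Multiset.cons_inj_right] at hN
      rw [← hN, ← Multiset.add_cons]
      exact Pk.bin _ hB (ih rfl hu)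

theorem Pk.exists_swap_max {L : ℕ} {k : ℕ} {M : Multiset ℕ} {x : ℕ} (h : Pk L (k + 1) M)
    (hpos : ∀ v ∈ M, 0 < v) (hx : x ∈ M) :
    ∃ U, x ::ₘ U ≤ M ∧ (x ::ₘ U).sum ≤ L ∧ Pk L k (M - x ::ₘ U) ∧
      (∀ y ∈ M - x ::ₘ U, L < (x ::ₘ U).sum + y) ∧
      (∀ u ∈ U, ∀ y ∈ M - x ::ₘ U, u < y → L < (x ::ₘ U).sum + (y - u)) := by
  obtain ⟨B, h1, h2, h3, h4⟩ := h.exists_bin hx
  obtain ⟨U, rfl⟩ := Multiset.exists_cons_of_mem h2
  suffices H : ∀ n : ℕ, ∀ U : Multiset ℕ, x ::ₘ U ≤ M → (x ::ₘ U).sum ≤ L →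
      Pk L k (M - x ::ₘ U) → L - (x ::ₘ U).sum ≤ n →
      ∃ U, x ::ₘ U ≤ M ∧ (x ::ₘ U).sum ≤ L ∧ Pk L k (M - x ::ₘ U) ∧
        (∀ y ∈ M - x ::ₘ U, L < (x ::ₘ U).sum + y) ∧
        (∀ u ∈ U, ∀ y ∈ M - x ::ₘ U, u < y → L < (x ::ₘ U).sum + (y - u)) from
    H _ U h1 h3 h4 le_rfl
  intro n
  induction n with
  | zero =>
    intro U h1 h3 h4 h5
    refine ⟨U, h1, h3, h4, ?_, ?_⟩
    · intro y hy
      have := hpos y (Multiset.mem_of_le tsub_le_self hy)
      omega
    · intro u _ y _ huy
      omega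
  | succ n ih =>
    intro U h1 h3 h4 h5
    by_cases hA : ∀ y ∈ M - x ::ₘ U, L < (x ::ₘ U).sum + y
    · by_cases hB : ∀ u ∈ U, ∀ y ∈ M - x ::ₘ U, u < y → L < (x ::ₘ U).sum + (y - u)
      · exact ⟨U, h1, h3, h4, hA, hB⟩
      · push Not at hB
        obtain ⟨u, hu, y, hy, huy, hL⟩ := hB
        obtain ⟨V, rfl⟩ := Multiset.exists_cons_of_mem hu
        obtain ⟨N, hN⟩ := Multiset.exists_cons_of_mem hy
        have hM : M = y ::ₘ N + (x ::ₘ u ::ₘ V) := by
          rw [← hN]
          exact (tsub_add_cancel_of_le h1).symm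
        have e1 : M - x ::ₘ y ::ₘ V = u ::ₘ N := by
          have : M = u ::ₘ N + (x ::ₘ y ::ₘ V) := by
            rw [hM]
            simp only [Multiset.cons_add, Multiset.add_cons]
            rw [Multiset.cons_swap u y]
          rw [this, add_tsub_cancel_right]
        have e2 : x ::ₘ y ::ₘ V ≤ M := by
          rw [hM, Multiset.le_iff_exists_add]
          refine ⟨u ::ₘ N, ?_⟩
          simp only [Multiset.cons_add, Multiset.add_cons]
          rw [Multiset.cons_swap x u, add_comm N V]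
        apply ih (y ::ₘ V) e2
        · simp only [Multiset.sum_cons] at hL ⊢
          omega
        · rw [e1]
          exact h4.replace hN huy.le
        · simp only [Multiset.sum_cons] at h5 h3 hL ⊢
          omega
    · push Not at hA
      obtain ⟨y, hy, hyL⟩ := hA
      have hy0 := hpos y (Multiset.mem_of_le tsub_le_self hy)
      obtain ⟨N, hN⟩ := Multiset.exists_cons_of_mem hy
      have hM : M = y ::ₘ N + (x ::ₘ U) := by
        rw [← hN]
        exact (tsub_add_cancel_of_le h1).symm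
      have e0 : M = N + (x ::ₘ y ::ₘ U) := by
        rw [hM]
        simp only [Multiset.cons_add, Multiset.add_cons]
      have e1 : M - x ::ₘ y ::ₘ U = N := by
        rw [e0, add_tsub_cancel_right]
      apply ih (y ::ₘ U)
      · rw [e0]
        exact Multiset.le_add_left _ _
      · simp only [Multiset.sum_cons] at hyL ⊢
        omega
      · rw [e1]
        apply h4.mono
        rw [hN]
        exact Multiset.le_cons_self _ _
      · simp only [Multiset.sum_cons] at h5 h3 hyL ⊢
        omega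

end Vale.Agent.P302
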