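import Vale.Agent.P302.V2.Fill

/-!
Tables of unpackable sets of items, one table for each number of bins.
-/

namespace Vale.Agent.P302.V2

open Vale.Agent.P302

/-- A search tree of codes. -/
inductive Tr : Type
  | lf : Tr
  | nd : Tr → ℕ → Tr → Tr

/-- Membership test. -/
noncomputable def find (t : Tr) (m : ℕ) : Bool :=
  Tr.rec (motive := fun _ => Bool) false
    (fun _ v _ ihl ihr => bif Nat.beq m v then true else bif Nat.ble m v then ihl else ihr) t

/-- Check all the entries. -/
noncomputable def allT (f : ℕ → Bool) (t : Tr) : Bool :=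
  Tr.rec (motive := fun _ => Bool) true (fun _ v _ ihl ihr => f v && (ihl && ihr)) t

theorem find_nd (l r : Tr) (v m : ℕ) : find (Tr.nd l v r) m =
    bif Nat.beq m v then true else bif Nat.ble m v then find l m else find r m := rfl

theorem allT_nd (f : ℕ → Bool) (l r : Tr) (v : ℕ) : allT f (Tr.nd l v r) =
    (f v && (allT f l && allT f r)) := rfl

theorem allT_find {f : ℕ → Bool} {t : Tr} (h : allT f t = true) {m : ℕ}
    (hm : find t m = true) : f m = true := by
  induction t with
  | lf => exact absurd hm (by simp [find])
  | nd l v r ihl ihr =>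
    rw [allT_nd, Bool.and_eq_true, Bool.and_eq_true] at h
    obtain ⟨h1, h2, h3⟩ := h
    rw [find_nd] at hm
    cases hb : Nat.beq m v with
    | true =>
      have := Nat.eq_of_beq_eq_true hb
      rw [this]
      exact h1
    | false =>
      rw [hb, cond_false] at hm
      cases hc : Nat.ble m v with
      | true => rw [hc, cond_true] at hm; exact ihl h2 hm
      | false => rw [hc, cond_false] at hm; exact ihr h3 hm

/-- All the entries of the table `t` are sets of items that do not fit into `k` bins. -/
def Bad (L : ℕ) (items : List ℕ) (k : ℕ) (t : Tr) : Prop :=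
  ∀ m, find t m = true → ¬ Pk L k (sizes (dec items m 1))

theorem Bad.lf (L : ℕ) (items : List ℕ) (k : ℕ) : Bad L items k Tr.lf := by
  intro m hm
  exact absurd hm (by simp [find])

/-- Check one entry against the table for one bin less. -/
noncomputable def chk (L : ℕ) (items : List ℕ) (k : ℕ) (t : Tr) (m : ℕ) : Bool :=
  chkl L (find t) k (dec items m 1)

theorem mem_dec {items : List ℕ} : ∀ {m w : ℕ} {y : ℕ × ℕ}, y ∈ dec items m w → y.1 ∈ items := by
  induction items with
  | nil => intro m w y hy; exact absurd hy (by simp [dec])
  | cons s t ih =>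
    intro m w y hy
    rw [dec_cons] at hy
    cases hb : Nat.beq (m % 2) 1 with
    | false =>
      rw [hb, cond_false] at hy
      exact List.mem_cons_of_mem _ (ih hy)
    | true =>
      rw [hb, cond_true] at hy
      rcases List.mem_cons.1 hy with h | h
      · rw [h]; simp
      · exact List.mem_cons_of_mem _ (ih h)

theorem Bad.step {L : ℕ} {items : List ℕ} {k : ℕ} {t t' : Tr} (hpos : ∀ s ∈ items, 0 < s)
    (h : Bad L items k t) (hc : allT (chk L items k t) t' = true) : Bad L items (k + 1) t' := by
  intro m hm
  have h1 := allT_find hc hm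
  refine chkl_spec h1 (fun y hy => hpos _ (mem_dec hy)) ?_
  intro r hr hr2
  obtain ⟨q, hq1, hq2⟩ := dec_sublist items m 1 r hr
  rw [one_mul] at hq1
  rw [← hq2]
  apply h
  rw [← hq1]
  exact hr2

end Vale.Agent.P302.V2
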